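import Vale.Agent.Lib.P356.helper23.Defs

/-!
P356 pool job A (second copy, helper76): the operators acting on a set `X` of sites are closed
under sums, scalar multiples, products and polynomials.
-/

namespace Vale.Agent.Lib.P356.H76

open Matrix
open Vale.Agent.Lib.P356

section

variable {Λ : Type*} [Fintype Λ] [DecidableEq Λ] {q : ℕ}

theorem supp_one (X : Finset Λ) : SupportedOn X (1 : Matrix (Conf Λ q) (Conf Λ q) ℂ) := by
  constructor
  · intro σ τ h x _
    have hst : σ = τ := by
      by_contra hne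
      exact h (Matrix.one_apply_ne hne)
    rw [hst]
  · intro σ τ σ' τ' hσ hτ hoff hoff'
    by_cases h : σ = τ
    · have h' : σ' = τ' := by
        funext x
        by_cases hx : x ∈ X
        · rw [← hσ x hx, ← hτ x hx, h]
        · exact hoff' x hx
      rw [h, h', Matrix.one_apply_eq, Matrix.one_apply_eq]
    · have h' : σ' ≠ τ' := by
        intro h'
        apply h
        funext x
        by_cases hx : x ∈ X
        · rw [hσ x hx, hτ x hx, h']
        · exact hoff x hx
      rw [Matrix.one_apply_ne h, Matrix.one_apply_ne h']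

theorem supp_mono {X Y : Finset Λ} (hXY : X ⊆ Y) {T : Matrix (Conf Λ q) (Conf Λ q) ℂ}
    (hT : SupportedOn X T) : SupportedOn Y T := by
  constructor
  · intro σ τ h x hx
    exact hT.1 σ τ h x (fun hxX => hx (hXY hxX))
  · intro σ τ σ' τ' hσ hτ hoff hoff'
    by_cases hall : ∀ x, x ∉ X → σ x = τ x
    · refine hT.2 σ τ σ' τ' (fun x hx => hσ x (hXY hx)) (fun x hx => hτ x (hXY hx)) hall ?_
      intro x hx
      by_cases hxY : x ∈ Y
      · rw [← hσ x hxY, ← hτ x hxY]
        exact hall x hx
      · exact hoff' x hxY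
    · have hex : ∃ x, x ∉ X ∧ σ x ≠ τ x := by
        by_contra hno
        apply hall
        intro x hx
        by_contra hne
        exact hno ⟨x, hx, hne⟩
      obtain ⟨x, hxX, hne⟩ := hex
      have hxY : x ∈ Y := by
        by_contra hxY
        exact hne (hoff x hxY)
      have h1 : T σ τ = 0 := by
        by_contra h
        exact hne (hT.1 σ τ h x hxX)
      have h2 : T σ' τ' = 0 := by
        by_contra h
        have h3 := hT.1 σ' τ' h x hxX
        apply hne
        rw [hσ x hxY, hτ x hxY, h3]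
      rw [h1, h2]

theorem supp_add {X : Finset Λ} {S T : Matrix (Conf Λ q) (Conf Λ q) ℂ}
    (hS : SupportedOn X S) (hT : SupportedOn X T) : SupportedOn X (S + T) := by
  constructor
  · intro σ τ h x hx
    by_cases hs : S σ τ = 0
    · have ht : T σ τ ≠ 0 := by
        intro ht
        apply h
        rw [Matrix.add_apply, hs, ht, add_zero]
      exact hT.1 σ τ ht x hx
    · exact hS.1 σ τ hs x hx
  · intro σ τ σ' τ' hσ hτ hoff hoff'
    rw [Matrix.add_apply, Matrix.add_apply, hS.2 σ τ σ' τ' hσ hτ hoff hoff',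
      hT.2 σ τ σ' τ' hσ hτ hoff hoff']

theorem supp_smul {X : Finset Λ} (c : ℂ) {T : Matrix (Conf Λ q) (Conf Λ q) ℂ}
    (hT : SupportedOn X T) : SupportedOn X (c • T) := by
  constructor
  · intro σ τ h x hx
    have ht : T σ τ ≠ 0 := by
      intro ht
      apply h
      rw [Matrix.smul_apply, ht, smul_zero]
    exact hT.1 σ τ ht x hx
  · intro σ τ σ' τ' hσ hτ hoff hoff'
    rw [Matrix.smul_apply, Matrix.smul_apply, hT.2 σ τ σ' τ' hσ hτ hoff hoff']

/-- Swap the values `σ x` and `σ' x` at the sites `x` off `X`. -/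
def swapOff (X : Finset Λ) (σ σ' : Conf Λ q) (κ : Conf Λ q) : Conf Λ q :=
  fun x => if x ∈ X then κ x else Equiv.swap (σ x) (σ' x) (κ x)

omit [Fintype Λ] in
theorem swapOff_on (X : Finset Λ) (σ σ' κ : Conf Λ q) {x : Λ} (hx : x ∈ X) :
    swapOff X σ σ' κ x = κ x := by
  unfold swapOff
  rw [if_pos hx]

omit [Fintype Λ] in
theorem swapOff_off (X : Finset Λ) (σ σ' κ : Conf Λ q) {x : Λ} (hx : x ∉ X) :
    swapOff X σ σ' κ x = Equiv.swap (σ x) (σ' x) (κ x) := by
  unfold swapOff
  rw [if_neg hx]

omit [Fintype Λ] in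
theorem swapOff_invol (X : Finset Λ) (σ σ' : Conf Λ q) :
    Function.Involutive (swapOff X σ σ') := by
  intro κ
  funext x
  by_cases hx : x ∈ X
  · rw [swapOff_on X σ σ' _ hx, swapOff_on X σ σ' _ hx]
  · rw [swapOff_off X σ σ' _ hx, swapOff_off X σ σ' _ hx, Equiv.swap_apply_self]

theorem supp_mul {X : Finset Λ} {S T : Matrix (Conf Λ q) (Conf Λ q) ℂ}
    (hS : SupportedOn X S) (hT : SupportedOn X T) : SupportedOn X (S * T) := by
  constructor
  · intro σ τ h x hx
    rw [Matrix.mul_apply] at h
    obtain ⟨κ, -, hκ⟩ := Finset.exists_ne_zero_of_sum_ne_zero h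
    have h1 : S σ κ ≠ 0 := left_ne_zero_of_mul hκ
    have h2 : T κ τ ≠ 0 := right_ne_zero_of_mul hκ
    rw [hS.1 σ κ h1 x hx, hT.1 κ τ h2 x hx]
  · intro σ τ σ' τ' hσ hτ hoff hoff'
    rw [Matrix.mul_apply, Matrix.mul_apply]
    rw [← Equiv.sum_comp (Function.Involutive.toPerm _ (swapOff_invol X σ σ'))
      (fun κ => S σ' κ * T κ τ')]
    refine Finset.sum_congr rfl fun κ _ => ?_
    rw [Function.Involutive.coe_toPerm]
    by_cases hall : ∀ x, x ∉ X → κ x = σ x
    · have e1 : S σ κ = S σ' (swapOff X σ σ' κ) := by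
        refine hS.2 σ κ σ' (swapOff X σ σ' κ) hσ ?_ ?_ ?_
        · intro x hx
          rw [swapOff_on X σ σ' κ hx]
        · intro x hx
          rw [hall x hx]
        · intro x hx
          rw [swapOff_off X σ σ' κ hx, hall x hx, Equiv.swap_apply_left]
      have e2 : T κ τ = T (swapOff X σ σ' κ) τ' := by
        refine hT.2 κ τ (swapOff X σ σ' κ) τ' ?_ hτ ?_ ?_
        · intro x hx
          rw [swapOff_on X σ σ' κ hx]
        · intro x hx
          rw [hall x hx, hoff x hx]
        · intro x hx
          rw [swapOff_off X σ σ' κ hx, hall x hx, Equiv.swap_apply_left, hoff' x hx]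
      rw [e1, e2]
    · have hex : ∃ x, x ∉ X ∧ κ x ≠ σ x := by
        by_contra hno
        apply hall
        intro x hx
        by_contra hne
        exact hno ⟨x, hx, hne⟩
      obtain ⟨x, hxX, hne⟩ := hex
      have h1 : S σ κ = 0 := by
        by_contra h
        exact hne (hS.1 σ κ h x hxX).symm
      have h2 : S σ' (swapOff X σ σ' κ) = 0 := by
        by_contra h
        have h3 := hS.1 σ' (swapOff X σ σ' κ) h x hxX
        rw [swapOff_off X σ σ' κ hxX] at h3
        apply hne
        have h4 : Equiv.swap (σ x) (σ' x) (κ x) = Equiv.swap (σ x) (σ' x) (σ x) := by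
          rw [Equiv.swap_apply_left, ← h3]
        exact (Equiv.swap (σ x) (σ' x)).injective h4
      rw [h1, h2, zero_mul, zero_mul]

theorem supp_pow {X : Finset Λ} {T : Matrix (Conf Λ q) (Conf Λ q) ℂ} (hT : SupportedOn X T)
    (k : ℕ) : SupportedOn X (T ^ k) := by
  induction k with
  | zero =>
    rw [pow_zero]
    exact supp_one X
  | succ k ih =>
    rw [pow_succ]
    exact supp_mul ih hT

theorem supp_aeval {X : Finset Λ} {T : Matrix (Conf Λ q) (Conf Λ q) ℂ} (hT : SupportedOn X T)
    (p : Polynomial ℂ) : SupportedOn X (Polynomial.aeval T p) := by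
  induction p using Polynomial.induction_on' with
  | add p r hp hr =>
    rw [map_add]
    exact supp_add hp hr
  | monomial k a =>
    rw [Polynomial.aeval_monomial, Algebra.algebraMap_eq_smul_one, smul_mul_assoc, one_mul]
    exact supp_smul a (supp_pow hT k)

end

end Vale.Agent.Lib.P356.H76
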